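import Vale.Agent.P207.N5.H391.St8C
import Vale.Agent.P207.N4.H534.Clock
import Vale.Agent.P207.N7.H832.RateP
import Vale.Agent.P207.N7.Geo.Asm

/-!
# P207, theorem P: step 8 from the picture

`Y.H391.step8 : Y.Step8`.
-/

open Set Filter Topology Metric MeasureTheory
open scoped ContDiff ENNReal

noncomputable section

namespace Vale.Agent.P207.N4.Y.H391

open Vale.Agent.P207.N4.H391
open Vale.Agent.P207.N3

/-- the charts as the charts of the tree `V` (the fields are the same) -/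
def toV [Dim] {Γ X B : Type} [Group Γ] [MetricSpace X] [ProperSpace X] [MulAction Γ X]
    [IsIsometricSMul Γ X] [TopologicalSpace B] [CompactSpace B] [T2Space B] [MulAction Γ B]
    [ContinuousConstSMul Γ B] {L : Leaf Γ X B} (F : Y.Aff L) : V.Aff L where
  ch := F.ch
  pt := F.pt
  pt_ne := F.pt_ne
  ch_pt := F.ch_pt
  pt_ch := F.pt_ch
  pt_zero := F.pt_zero
  pt_cont := F.pt_cont
  ch_cont := F.ch_cont
  pt_smul := F.pt_smul
  pt_rot := F.pt_rot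
  unit := F.unit
  jc := F.jc
  c := F.c
  c_pos := F.c_pos
  der_zero := F.der_zero
  der_inv := F.der_inv
  P := F.P
  P_fderiv := F.P_fderiv
  flow := F.flow
  lin := F.lin
  leaf := F.leaf

/-- **Step 8.** -/
theorem step8 [Dim] : Y.Step8 := by
  intro Γ X B V' _ _ _ _ _ _ _ _ _ _ _ _ _ _ _ L P _ hS
  have ho : Clock.Ok L P.Ra.c P.Ra.c₀ P.Ra.c₁ :=
    ⟨P.Ra.c_cont, P.Ra.c_smul, P.Ra.c_rot, P.Ra.c_flip, P.Ra.c₀_pos, P.Ra.c_lo, P.Ra.c_hi⟩
  have hk : V.H391.T.C.Clk L (Clock.sg L P.Ra.c) P.Ra.c₀ P.Ra.c₁ :=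
    ⟨P.Ra.c₀_pos, fun t x ht => Clock.sg_lo ho ht x, fun t x ht => Clock.sg_hi ho ht x,
      fun t x _ => Clock.sg_flip P.Ra.c_flip t x⟩
  obtain ⟨S, -⟩ := V.H391.T.C.exists_st8C (toV P.Af) hS P.S.A.D_eq P.Ra.a_pos P.Ra.a_le_b
    P.Ra.pinch P.Ra.T_pos hk (Y.H832.rateP P.toPic)
  exact ⟨S⟩

end Vale.Agent.P207.N4.Y.H391
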